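import Vale.Agent.P193.Faithful.Insert

/-!
P193, W6: every lift is faithful. Along a word the leaves are transported and the doubling becomes
conjugation by the insertions of the first and of the last leaves.
-/

namespace Vale.Agent.P193.BH

namespace SFT

variable {Γ : Type} [Group Γ] {S : SFT Γ}

/-- `g` carries each leaf of `L` onto a leaf of `L'` by one translation and one prefix. -/
def Trans (g : Equiv.Perm S.Pt) (L L' : LenFn S) : Prop :=
  ∀ x z, ∃ (δ : Γ) (b : List Bool), b.length = L'.len (g (x, z)) ∧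
    ∀ w, g (x, cat (tk (L.len (x, z)) z) w) = (S.act δ x, cat b w)

lemma cat_eq_forall {a b : List Bool} (h : ∀ w, cat a w = cat b w) : a = b := by
  rcases lt_trichotomy a.length b.length with hl | hl | hl
  · have e := congrFun (h fun _ => !(b[a.length]'hl)) a.length
    rw [cat_of_le _ le_rfl, cat_of_lt _ hl] at e
    simp at e
  · exact (cat_inj hl (h fun _ => false)).1
  · have e := congrFun (h fun _ => !(a[b.length]'hl)) b.length
    rw [cat_of_le _ le_rfl, cat_of_lt _ hl] at e
    simp at e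

/-! ### A choice of leaves defined piece by piece -/

/-- The part in which a point lies. -/
noncomputable def partLen (c : S.Cyc) (f : Fin 3 → S.Pt → ℕ) (f₀ : S.Pt → ℕ) (q : S.Pt) : ℕ :=
  open Classical in
  if h : ∃ i, q ∈ S.piece c.base (c.shift i) (c.pre i) then f h.choose q else f₀ q

lemma partLen_of_mem {c : S.Cyc} {f : Fin 3 → S.Pt → ℕ} {f₀ : S.Pt → ℕ} {i : Fin 3} {q : S.Pt}
    (h : q ∈ S.piece c.base (c.shift i) (c.pre i)) : partLen c f f₀ q = f i q := by
  have hex : ∃ i, q ∈ S.piece c.base (c.shift i) (c.pre i) := ⟨i, h⟩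
  rw [partLen, dif_pos hex]
  congr 1
  by_contra hne
  exact Set.disjoint_left.1 (c.disjoint _ _ hne) hex.choose_spec h

lemma partLen_of_not {c : S.Cyc} {f : Fin 3 → S.Pt → ℕ} {f₀ : S.Pt → ℕ} {q : S.Pt}
    (h : ∀ i, q ∉ S.piece c.base (c.shift i) (c.pre i)) : partLen c f f₀ q = f₀ q := by
  rw [partLen, dif_neg (by simpa using h)]

lemma mem_piece_congr {U : Set S.X} {γ : Γ} {a : List Bool} {x : S.X} {z z' : ℕ → Bool}
    (h : tk a.length z = tk a.length z') :
    (x, z) ∈ S.piece U γ a ↔ (x, z') ∈ S.piece U γ a := by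
  simp [mem_piece, h]

lemma tk_le {m n : ℕ} (h : m ≤ n) {z z' : ℕ → Bool} (e : tk n z = tk n z') : tk m z = tk m z' :=
  tk_congr fun _ hi => apply_of_tk_eq e (lt_of_lt_of_le hi h)

/-- Leaves given piece by piece. -/
noncomputable def LenFn.ofParts (c : S.Cyc) (f : Fin 3 → S.Pt → ℕ) (f₀ : S.Pt → ℕ) (B : ℕ)
    (hB : ∀ i q, f i q ≤ B) (hB₀ : ∀ q, f₀ q ≤ B) (hf : ∀ i, IsLocallyConstant (f i))
    (hf₀ : IsLocallyConstant f₀)
    (hleaf : ∀ i x z z', (x, z) ∈ S.piece c.base (c.shift i) (c.pre i) →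
      tk (f i (x, z)) z = tk (f i (x, z)) z' →
        (c.pre i).length ≤ f i (x, z) ∧ f i (x, z') = f i (x, z))
    (hleaf₀ : ∀ x z z', (∀ i, (x, z) ∉ S.piece c.base (c.shift i) (c.pre i)) →
      tk (f₀ (x, z)) z = tk (f₀ (x, z)) z' →
        (∀ i, (c.pre i).length ≤ f₀ (x, z)) ∧ f₀ (x, z') = f₀ (x, z)) : LenFn S where
  len := partLen c f f₀
  bound := B
  le_bound q := by
    rw [partLen]
    split_ifs
    exacts [hB _ q, hB₀ q]
  loc := by
    refine (IsLocallyConstant.iff_eventually_eq _).2 fun q => ?_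
    by_cases h : ∀ i, q ∉ S.piece c.base (c.shift i) (c.pre i)
    · have ho : IsOpen (⋂ i, (S.piece c.base (c.shift i) (c.pre i))ᶜ) :=
        isOpen_iInter_of_finite fun i => (isClopen_piece c.clopen _ _).compl.isOpen
      filter_upwards [ho.mem_nhds (Set.mem_iInter.2 h),
        (IsLocallyConstant.iff_eventually_eq _).1 hf₀ q] with y hy hy'
      rw [partLen_of_not h, partLen_of_not (Set.mem_iInter.1 hy), hy']
    · push Not at h
      obtain ⟨i, hi⟩ := h
      filter_upwards [(isClopen_piece c.clopen _ _).isOpen.mem_nhds hi,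
        (IsLocallyConstant.iff_eventually_eq _).1 (hf i) q] with y hy hy'
      rw [partLen_of_mem hi, partLen_of_mem hy, hy']
  leaf x z z' e := by
    by_cases h : ∀ i, (x, z) ∉ S.piece c.base (c.shift i) (c.pre i)
    · rw [partLen_of_not h] at e ⊢
      obtain ⟨h1, h2⟩ := hleaf₀ x z z' h e
      rw [partLen_of_not fun i hi => h i ((mem_piece_congr (tk_le (h1 i) e)).2 hi), h2]
    · push Not at h
      obtain ⟨i, hi⟩ := h
      rw [partLen_of_mem hi] at e ⊢
      obtain ⟨h1, h2⟩ := hleaf i x z z' hi e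
      rw [partLen_of_mem ((mem_piece_congr (tk_le h1 e)).1 hi), h2]

/-- The formula of the inverse cycle on the `j`-th piece. -/
def backAt (c : S.Cyc) (j : Fin 3) (q : S.Pt) : S.Pt :=
  (S.act (c.shift (j - 1) * (c.shift j)⁻¹) q.1, cat (c.pre (j - 1)) (dr (c.pre j).length q.2))

lemma continuous_backAt (c : S.Cyc) (j : Fin 3) : Continuous (backAt c j) := by
  refine ((S.continuous_act _).comp continuous_fst).prodMk (continuous_pi fun i => ?_)
  by_cases h : i < (c.pre (j - 1)).length
  · simp only [cat_of_lt _ h]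
    exact continuous_const
  · simp only [cat_of_le _ (not_lt.1 h)]
    exact (continuous_apply _).comp continuous_snd

lemma sum_pre (c : S.Cyc) (i : Fin 3) : (c.pre i).length ≤ ∑ j, (c.pre j).length :=
  Finset.single_le_sum (f := fun j => (c.pre j).length) (fun _ _ => Nat.zero_le _)
    (Finset.mem_univ i)

/-- The leaves carried forward by a cycle. -/
lemma exists_trans {c : S.Cyc} {g : Equiv.Perm S.Pt} (h : c.IsPerm S g) (L : LenFn S)
    (hL : ∀ p, ∑ j, (c.pre j).length ≤ L.len p) :
    ∃ L', Trans g L L' ∧ ∀ p, L.len p ≤ L'.len (g p) + ∑ j, (c.pre j).length := by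
  set N := ∑ j, (c.pre j).length with hN
  let f : Fin 3 → S.Pt → ℕ := fun j q =>
    L.len (backAt c j q) + (c.pre j).length - (c.pre (j - 1)).length
  have hleaf : ∀ j x z z', (x, z) ∈ S.piece c.base (c.shift j) (c.pre j) →
      tk (f j (x, z)) z = tk (f j (x, z)) z' →
        (c.pre j).length ≤ f j (x, z) ∧ f j (x, z') = f j (x, z) := by
    intro j x z z' _ e
    have h0 := hL (backAt c j (x, z))
    have h1 := sum_pre c (j - 1)
    refine ⟨by simp only [f]; omega, ?_⟩
    have e' : tk (L.len (backAt c j (x, z))) (backAt c j (x, z)).2 =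
        tk (L.len (backAt c j (x, z))) (backAt c j (x, z')).2 := by
      refine tk_congr fun i hi => ?_
      show cat _ (dr _ z) i = cat _ (dr _ z') i
      by_cases hp : i < (c.pre (j - 1)).length
      · rw [cat_of_lt _ hp, cat_of_lt _ hp]
      · rw [cat_of_le _ (not_lt.1 hp), cat_of_le _ (not_lt.1 hp)]
        exact apply_of_tk_eq e (by simp only [f]; omega)
    have := L.leaf _ _ _ e'
    simp only [f, backAt] at this ⊢
    rw [this]
  let L' := LenFn.ofParts c f L.len (L.bound + N) (fun i q => by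
      have := L.le_bound (backAt c i q)
      have := sum_pre c i
      simp only [f]; omega) (fun q => (L.le_bound q).trans (Nat.le_add_right _ _))
    (fun i => (L.loc.comp_continuous (continuous_backAt c i)).comp
      (fun n => n + (c.pre i).length - (c.pre (i - 1)).length)) L.loc hleaf
    (fun x z z' _ e => ⟨fun i => (sum_pre c i).trans (hL _), L.leaf x z z' e⟩)
  have key : ∀ x z, ∃ (δ : Γ) (b : List Bool), (b.length = L'.len (g (x, z)) ∧
      L.len (x, z) ≤ b.length + N) ∧
      ∀ w, g (x, cat (tk (L.len (x, z)) z) w) = (S.act δ x, cat b w) := by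
    intro x z
    have hn := hL (x, z)
    by_cases hx : ∀ i, (x, z) ∉ S.piece c.base (c.shift i) (c.pre i)
    · refine ⟨1, tk (L.len (x, z)) z, ⟨?_, by simp⟩, fun w => ?_⟩
      · rw [h.2 _ hx]
        show _ = partLen c f L.len (x, z)
        rw [partLen_of_not hx, length_tk]
      · rw [S.act_one]
        refine h.2 _ fun i hi => hx i ((mem_piece_congr ?_).2 hi)
        exact tk_le ((sum_pre c i).trans hn) (tk_cat (length_tk _ _) _).symm
    · push Not at hx
      obtain ⟨i, y, hy, w₀, e⟩ := hx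
      obtain ⟨rfl, rfl⟩ := Prod.mk.inj e
      obtain ⟨s, hs⟩ : c.pre i <+: tk (L.len (S.act (c.shift i) y, cat (c.pre i) w₀))
          (cat (c.pre i) w₀) :=
        prefix_of_cat_eq (w := w₀) (by simpa using (sum_pre c i).trans hn) (cat_tk_dr _ _).symm
      have hlen := congrArg List.length hs
      rw [List.length_append, length_tk] at hlen
      have hb : backAt c (i + 1) (S.act (c.shift (i + 1)) y, cat (c.pre (i + 1)) w₀) =
          (S.act (c.shift i) y, cat (c.pre i) w₀) := by
        simp only [backAt, add_sub_cancel_right, dr_cat, S.act_act, inv_mul_cancel_right]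
      refine ⟨c.shift (i + 1) * (c.shift i)⁻¹, c.pre (i + 1) ++ s, ⟨?_, ?_⟩, fun w => ?_⟩
      · rw [h.apply_piece i hy w₀]
        show _ = partLen c f L.len _
        rw [partLen_of_mem (mk_mem_piece _ _ hy w₀)]
        simp only [f, hb, add_sub_cancel_right, List.length_append]
        omega
      · have := sum_pre c i
        simp only [List.length_append]
        omega
      · rw [← hs, cat_append, cat_append, h.apply_piece i hy, S.act_act, inv_mul_cancel_right]
  refine ⟨L', fun x z => ?_, fun p => ?_⟩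
  · obtain ⟨δ, b, ⟨h1, -⟩, h3⟩ := key x z
    exact ⟨δ, b, h1, h3⟩
  · obtain ⟨δ, b, ⟨h1, h2⟩, -⟩ := key p.1 p.2
    rw [Prod.mk.eta] at h1
    rw [← h1]
    exact h2

namespace Trans

variable {g g' : Equiv.Perm S.Pt} {L L' L'' : LenFn S}

/-- The leaf at the image of a point. -/
lemma tk_apply (h : Trans g L L') (x : S.X) (z : ℕ → Bool) :
    ∃ (δ : Γ) (b : List Bool), g (x, z) = (S.act δ x, cat b (dr (L.len (x, z)) z)) ∧
      tk (L'.len (g (x, z))) (g (x, z)).2 = b ∧ b.length = L'.len (g (x, z)) ∧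
      ∀ w, g (x, cat (tk (L.len (x, z)) z) w) = (S.act δ x, cat b w) := by
  obtain ⟨δ, b, hb, hw⟩ := h x z
  have e := hw (dr (L.len (x, z)) z)
  rw [cat_tk_dr] at e
  refine ⟨δ, b, e, ?_, hb, hw⟩
  rw [← hb, e]
  exact tk_cat rfl _

lemma comp (h : Trans g L L') (h' : Trans g' L' L'') : Trans (g' * g) L L'' := by
  intro x z
  obtain ⟨δ, b, e, htk, hb, hw⟩ := h.tk_apply x z
  obtain ⟨δ', b', hb', hw'⟩ := h' (g (x, z)).1 (g (x, z)).2
  rw [Prod.mk.eta] at hb' hw'
  rw [htk] at hw'
  refine ⟨δ' * δ, b', hb', fun w => ?_⟩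
  show g' (g _) = _
  rw [hw]
  have := hw' w
  rw [e] at this
  rw [this, S.act_act]

lemma one (L : LenFn S) : Trans 1 L L :=
  fun x z => ⟨1, tk (L.len (x, z)) z, by simp, fun w => by simp [S.act_one]⟩

end Trans

namespace Lift

namespace Copies

variable {Λ : Lift S} (C : Copies Λ)

lemma proj_dbl_ins {a u v : Λ.E} {L L' : LenFn S} (h : Trans (Λ.proj a) L L')
    (hu : IsIns L (Λ.proj u)) (hv : IsIns L' (Λ.proj v)) :
    Λ.proj (C.dbl a * u) = Λ.proj (v * a) := by
  refine Equiv.ext fun ⟨x, z⟩ => ?_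
  obtain ⟨δ, b, -, -, hb, hw⟩ := h.tk_apply x z
  set ℓ := L.len (x, z) with hℓ
  have hz : z = cat (tk ℓ z ++ [z ℓ]) (dr (ℓ + 1) z) := by
    rw [cat_append]
    conv_lhs => rw [← cat_tk_dr ℓ z, ← cat_tk_dr 1 (dr ℓ z)]
    have e0 : dr 1 (dr ℓ z) = dr (ℓ + 1) z := funext fun i => by simp [dr, add_assoc]
    rw [e0]
    simp [tk, dr]
  have e1 : ins ℓ z = cat [z ℓ] (cat (tk ℓ z) (dr (ℓ + 1) z)) := by
    conv_lhs => rw [hz, ins_cat (length_tk ℓ z)]
    rw [cat_append]
  have e2 : Λ.proj a (x, z) = (S.act δ x, cat (b ++ [z ℓ]) (dr (ℓ + 1) z)) := by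
    conv_lhs => rw [hz, cat_append, hw]
    rw [cat_append]
  rw [map_mul, map_mul, Equiv.Perm.mul_apply, Equiv.Perm.mul_apply, hu, ← hℓ, e1,
    C.proj_dbl_apply, hw, e2, hv]
  rw [← show b.length = L'.len (S.act δ x, cat (b ++ [z ℓ]) (dr (ℓ + 1) z)) by rw [← e2]; exact hb,
    ins_cat rfl, cat_append]

/-- Conjugation by a translation of leaves keeps leaf cycles length preserving. -/
lemma conj_mem_lp {a : Λ.E} {L L' : LenFn S} (h : Trans (Λ.proj a) L L') {η : Λ.E}
    (hη : η ∈ Λ.leafGroup L) : a * η * a⁻¹ ∈ Λ.lp := by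
  have key : ∀ d : S.Cyc, d.InLeaf L → a * Λ.t d * a⁻¹ ∈ Λ.lp := by
    intro d hd
    induction Λ.fine_affine a d with
    | of e he =>
      rcases Set.eq_empty_or_nonempty e.base with h0 | ⟨x, hx⟩
      · rw [Λ.t_empty h0, mul_one, mul_inv_cancel]
        exact one_mem _
      obtain ⟨e', he'⟩ := he
      obtain ⟨hlen, hsh, hbd, hleaf⟩ := hd
      rw [Λ.good a e e' he']
      refine Subgroup.subset_closure ⟨e', fun i j => ?_, rfl⟩
      let z₀ : ℕ → Bool := cat (e.pre 0) fun _ => false
      obtain ⟨δ, b, -, hw⟩ := h x z₀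
      have hpre : ∀ i, ∃ s, e.pre i = tk (L.len (x, z₀)) z₀ ++ s ∧ e'.pre i = b ++ s := by
        intro i
        have h1 : L.at' (x, cat (e.pre i) fun _ => false) = L.at' (x, z₀) :=
          hleaf x hx i 0 fun _ => false
        obtain ⟨s, hs⟩ : tk (L.len (x, z₀)) z₀ <+: e.pre i := by
          show L.at' (x, z₀) <+: e.pre i
          rw [← h1]
          refine prefix_of_cat_eq (w := dr (L.len (x, cat (e.pre i) fun _ => false))
            (cat (e.pre i) fun _ => false)) (w' := fun _ => false)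
            (by simpa [LenFn.at'] using (L.le_bound _).trans (hbd i)) ?_
          exact cat_tk_dr _ _
        refine ⟨s, hs.symm, cat_eq_forall fun w => ?_⟩
        have e1 := he'.2 i x hx w
        rw [hsh, ← hs, Pi.one_apply, S.act_one, cat_append, hw, ← cat_append] at e1
        exact (Prod.mk.inj e1).2.symm
      obtain ⟨s, hs1, hs2⟩ := hpre i
      obtain ⟨s', hs1', hs2'⟩ := hpre j
      have hij := hlen i j
      rw [hs1, hs1'] at hij
      rw [hs2, hs2']
      simp only [List.length_append] at hij ⊢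
      omega
    | base e V hV _ _ i1 i2 =>
      have hr : ∀ (W : Set S.X) (hW : IsClopen W), (e.restrict hW).InLeaf L := fun W hW =>
        ⟨hd.1, hd.2.1, hd.2.2.1, fun x hx => hd.2.2.2 x hx.1⟩
      rw [Λ.split_base e V hV, show ∀ p q : Λ.E, a * (p * q) * a⁻¹ = a * p * a⁻¹ * (a * q * a⁻¹)
        from fun p q => by group]
      exact mul_mem (i1 (hr V hV)) (i2 (hr _ hV.compl))
    | pre e _ _ i1 i2 =>
      have hr : ∀ c : Bool, (e.extend c).InLeaf L := fun c =>
        ⟨fun i j => by simp [Cyc.extend_pre, hd.1 i j], hd.2.1,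
          fun i => (hd.2.2.1 i).trans (by simp [Cyc.extend_pre]), fun x hx i j w => by
            simp only [Cyc.extend_pre, cat_append]
            exact hd.2.2.2 x hx i j _⟩
      rw [Λ.split_pre e, show ∀ p q : Λ.E, a * (p * q) * a⁻¹ = a * p * a⁻¹ * (a * q * a⁻¹)
        from fun p q => by group]
      exact mul_mem (i1 (hr false)) (i2 (hr true))
  induction hη using Subgroup.closure_induction with
  | one => simp
  | mem y hy =>
    obtain ⟨d, hd, rfl⟩ := hy
    exact key d hd
  | inv y _ hy => simpa [mul_assoc] using inv_mem hy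
  | mul y y' _ _ hy hy' =>
    rw [show a * (y * y') * a⁻¹ = a * y * a⁻¹ * (a * y' * a⁻¹) by group]
    exact mul_mem hy hy'

/-- The doubling of one cycle, from one set of leaves to the next. -/
lemma dbl_step {c : S.Cyc} {a : Λ.E}
    (hR : ∀ (R : LenFn S) (k : ℕ) (u : Λ.E), IsIns R (Λ.proj u) →
      (∀ i, ∀ x ∈ c.base, ∀ w,
        R.len (S.act (c.shift i) x, cat (c.pre i) w) = (c.pre i).length + k) →
      C.dbl a * u = u * a)
    (L L' : LenFn S) (h : Trans (Λ.proj a) L L') (u v : Λ.E) (hu : u ∈ Λ.lp) (hv : v ∈ Λ.lp)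
    (hu' : IsIns L (Λ.proj u)) (hv' : IsIns L' (Λ.proj v)) : C.dbl a * u = v * a := by
  set N := ∑ j, (c.pre j).length
  set M := L.bound
  let R := LenFn.ofParts c (fun i _ => (c.pre i).length + M) (fun _ => N + M) (N + M)
    (fun i _ => by have := sum_pre c i; omega) (fun _ => le_rfl) (fun _ => IsLocallyConstant.const _)
    (IsLocallyConstant.const _) (fun _ _ _ _ _ _ => ⟨Nat.le_add_right _ _, rfl⟩)
    (fun _ _ _ _ _ => ⟨fun i => (sum_pre c i).trans (Nat.le_add_right _ _), rfl⟩)
  obtain ⟨uR, huR, huR'⟩ := Λ.exists_isIns R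
  have e1 := hR R M uR huR' fun i x hx w => by
    show partLen c (fun i _ => (c.pre i).length + M) (fun _ => N + M) _ = _
    rw [partLen_of_mem (mk_mem_piece _ _ hx w)]
  have hge : ∀ p, M ≤ R.len p := fun p => by
    show M ≤ partLen c (fun i _ => (c.pre i).length + M) (fun _ => N + M) p
    rw [partLen]
    split_ifs <;> omega
  have hLR : L.bound ≤ R.bound := Nat.le_add_left _ _
  obtain ⟨η, hη, hl⟩ := Λ.exists_level L (M := R.bound + 1) (hLR.trans (Nat.le_succ _))
    (fun x => (R.insPerm R.bound le_rfl x)⁻¹ * L.insPerm R.bound hLR x)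
    ((R.isLocallyConstant_insPerm _ le_rfl).comp₂ (L.isLocallyConstant_insPerm _ hLR)
      fun σ τ => σ⁻¹ * τ)
    (fun x v hv w w' => by
      set v' := ((R.insPerm R.bound le_rfl x)⁻¹ * L.insPerm R.bound hLR x) v with hv''
      have e : R.insWord R.bound x v' = L.insWord R.bound x v := by
        show R.insPerm R.bound le_rfl x v' = L.insPerm R.bound hLR x v
        rw [hv'', Equiv.Perm.mul_apply, Equiv.Perm.inv_def, Equiv.apply_symm_apply]
      have h1 := R.ins_eq_insWord le_rfl x v' w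
      have h2 := L.ins_eq_insWord hLR x v w
      rw [e] at h1
      have hr := hge (x, cat (List.ofFn v') w)
      have hl := L.le_bound (x, cat (List.ofFn v) w)
      have h3 : tk (L.len (x, cat (List.ofFn v) w)) (cat (List.ofFn v) w) =
          tk (L.len (x, cat (List.ofFn v) w)) (cat (List.ofFn v') w) := tk_congr fun i hi => by
        rw [← ins_succ_of_lt (cat (List.ofFn v) w) hi, h2, ← h1, ins_succ_of_lt _ (by omega)]
      have h4 : L.at' (x, cat (List.ofFn v') w) = L.at' (x, cat (List.ofFn v) w) := by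
        simp only [LenFn.at']
        rw [L.leaf x _ _ h3, h3]
      exact h4.trans (L.at_eq_of_bound (hLR.trans (Nat.le_succ _)) x
        (LenFn.tk_ofFn le_rfl v w' w)))
  have hηlp := Λ.leafGroup_le_lp L hη
  have e2 : u = uR * η := by
    refine C.lp_unique hu (mul_mem huR hηlp) (((L.isIns_iff_isLevel hLR _).1 hu').unique ?_)
    rw [map_mul]
    intro x v w
    rw [((((R.isIns_iff_isLevel le_rfl _).1 huR').mul hl) x v w)]
    simp
  have e3 : C.dbl a * u = uR * (a * η * a⁻¹) * a := by
    rw [e2, ← mul_assoc, e1]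
    group
  rw [e3]
  congr 1
  refine C.lp_unique (mul_mem huR (conj_mem_lp h hη)) hv ?_
  have e4 := C.proj_dbl_ins h hu' hv'
  rw [e3, map_mul, map_mul (Λ.proj) v a] at e4
  exact mul_right_cancel e4

/-- A statement on every element, by induction along words. -/
lemma dbl_eq (a : Λ.E) : ∃ N, ∀ L : LenFn S, (∀ p, N ≤ L.len p) → ∃ L', Trans (Λ.proj a) L L' ∧
    (∀ p, L.len p ≤ L'.len (Λ.proj a p) + N) ∧
    ∀ u v, u ∈ Λ.lp → v ∈ Λ.lp → IsIns L (Λ.proj u) → IsIns L' (Λ.proj v) →
      C.dbl a * u = v * a := by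
  have hgen : ∀ (c : S.Cyc) (a : Λ.E), c.IsPerm S (Λ.proj a) →
      (∀ (R : LenFn S) (k : ℕ) (u : Λ.E), IsIns R (Λ.proj u) →
        (∀ i, ∀ x ∈ c.base, ∀ w,
          R.len (S.act (c.shift i) x, cat (c.pre i) w) = (c.pre i).length + k) →
        C.dbl a * u = u * a) →
      ∃ N, ∀ L : LenFn S, (∀ p, N ≤ L.len p) → ∃ L', Trans (Λ.proj a) L L' ∧
        (∀ p, L.len p ≤ L'.len (Λ.proj a p) + N) ∧
        ∀ u v, u ∈ Λ.lp → v ∈ Λ.lp → IsIns L (Λ.proj u) → IsIns L' (Λ.proj v) →
          C.dbl a * u = v * a := fun c a hc hR =>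
    ⟨∑ j, (c.pre j).length, fun L hL => by
      obtain ⟨L', h1, h2⟩ := exists_trans hc L hL
      exact ⟨L', h1, h2, fun u v hu hv hu' hv' => C.dbl_step hR L L' h1 u v hu hv hu' hv'⟩⟩
  have ha : a ∈ Subgroup.closure (Set.range Λ.t) := by rw [Λ.generated]; trivial
  induction ha using Subgroup.closure_induction'' with
  | one =>
    refine ⟨0, fun L _ => ⟨L, by rw [map_one]; exact Trans.one L, by simp, ?_⟩⟩
    intro u v hu hv hu' hv'
    rw [C.lp_unique hu hv (hu'.unique hv'), map_one, one_mul, mul_one]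
  | mem y hy =>
    obtain ⟨c, rfl⟩ := hy
    exact hgen c _ (Λ.proj_t c) fun R k u hu h => C.dbl_t_of_leaves hu k c h
  | inv_mem y hy =>
    obtain ⟨c, rfl⟩ := hy
    refine hgen c.rev _ (by rw [map_inv]; exact (Λ.proj_t c).inv) fun R k u hu h => ?_
    have e := C.dbl_t_of_leaves hu k c fun i x hx w => by
      have := h (-i) x hx w
      simpa [Cyc.rev] using this
    rw [map_inv, inv_mul_eq_iff_eq_mul, ← mul_assoc, e, mul_inv_cancel_right]
  | mul y y' _ _ hy hy' =>
    obtain ⟨N, hN⟩ := hy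
    obtain ⟨N', hN'⟩ := hy'
    refine ⟨N + N', fun L hL => ?_⟩
    obtain ⟨L', h1, h2, h3⟩ := hN' L fun p => le_trans (Nat.le_add_left _ _) (hL p)
    obtain ⟨L'', h4, h5, h6⟩ := hN L' fun q => by
      have := h2 ((Λ.proj y').symm q)
      have := hL ((Λ.proj y').symm q)
      rw [Equiv.apply_symm_apply] at *
      omega
    refine ⟨L'', by rw [map_mul]; exact h1.comp h4, fun p => ?_, fun u v hu hv hu' hv' => ?_⟩
    · have := h2 p
      have := h5 (Λ.proj y' p)
      rw [map_mul, Equiv.Perm.mul_apply]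
      omega
    · obtain ⟨w, hw, hw'⟩ := Λ.exists_isIns L'
      rw [map_mul, mul_assoc, h3 u w hu hw hu' hw', ← mul_assoc, h6 w v hw hv hw' hv', mul_assoc]

include C in
/-- A lift with copies is faithful. -/
theorem faithful : Function.Injective Λ.proj := by
  have key : ∀ k, Λ.proj k = 1 → C.dbl k = k := by
    intro k hk
    obtain ⟨N, hN⟩ := C.dbl_eq k
    obtain ⟨L', h1, -, h3⟩ := hN (LenFn.const S N) fun _ => le_rfl
    have hlen : ∀ p, L'.len p = N := fun p => by
      obtain ⟨δ, b, hb, hw⟩ := h1 p.1 p.2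
      have e := hw (fun _ => false)
      rw [hk] at hb e
      have e' : tk N p.2 = b := cat_eq_forall fun w => by
        have := hw w
        rw [hk] at this
        exact (Prod.mk.inj this).2
      rw [← e', length_tk] at hb
      exact hb.symm
    obtain ⟨u, hu, hu'⟩ := Λ.exists_isIns (LenFn.const S N)
    have e := h3 u u hu hu hu' fun x z => by rw [hu', hlen]; rfl
    exact mul_right_cancel (e.trans (Λ.ker_central hk u).symm)
  refine (injective_iff_map_eq_one _).2 fun k hk => C.eq_one_of_dbl hk (key k hk) fun b => ?_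
  exact key _ (C.proj_cp_eq_one [b] hk)

end Copies

end Lift

end SFT

/-- W6: every lift is faithful. -/
theorem faithful : FaithfulStatement := by
  intro Γ _ S _ Λ
  refine (injective_iff_map_eq_one _).2 fun k hk => ?_
  obtain ⟨k', rfl⟩ := Λ.fromUniv_surjective k
  have : k' = 1 := (injective_iff_map_eq_one _).1 Λ.univCopies.faithful k' hk
  rw [this, map_one]

end Vale.Agent.P193.BH
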