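import Vale.Agent.P193.BH.Pieces

/-!
P193, W6: the universal lift. Putting a prefix in front of all prefixes is an endomorphism of it.
-/

namespace Vale.Agent.P193.BH.SFT

variable {Γ : Type} [Group Γ] {S : SFT Γ}

/-! ### Copies -/

lemma piece_copy_iff {U : Set S.X} {γ : Γ} {p a : List Bool} {x : S.X} {z : ℕ → Bool} :
    (x, cat p z) ∈ S.piece U γ (p ++ a) ↔ (x, z) ∈ S.piece U γ a := by
  constructor
  · rintro ⟨x', hx', w, e⟩
    rw [cat_append] at e
    exact ⟨x', hx', w, Prod.ext (Prod.mk.inj e).1 (cat_inj rfl (Prod.mk.inj e).2).2⟩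
  · rintro ⟨x', hx', w, e⟩
    exact ⟨x', hx', w, Prod.ext (Prod.mk.inj e).1 (by
      rw [cat_append]
      exact congrArg (cat p) (Prod.mk.inj e).2)⟩

lemma eq_cat_of_mem_piece {U : Set S.X} {γ : Γ} {p a : List Bool} {q : S.Pt}
    (h : q ∈ S.piece U γ (p ++ a)) : q = (q.1, cat p (dr p.length q.2)) ∧ tk p.length q.2 = p := by
  obtain ⟨x, -, w, rfl⟩ := h
  simp [cat_append, dr_cat, tk_cat]

/-- The cycle with `p` put in front of every prefix. -/
def Cyc.copy (p : List Bool) (c : S.Cyc) : S.Cyc where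
  base := c.base
  clopen := c.clopen
  shift := c.shift
  pre i := p ++ c.pre i
  disjoint i j h := by
    refine Set.disjoint_left.2 fun q hq hq' => ?_
    obtain ⟨x, z⟩ := q
    have e := congrArg Prod.snd (eq_cat_of_mem_piece hq).1
    simp only at e
    generalize dr p.length z = w at e
    subst e
    exact Set.disjoint_left.1 (c.disjoint i j h) (piece_copy_iff.1 hq) (piece_copy_iff.1 hq')

lemma Cyc.copy_copy (p p' : List Bool) (c : S.Cyc) : (c.copy p').copy p = c.copy (p ++ p') :=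
  Cyc.ext' rfl rfl (funext fun _ => (List.append_assoc _ _ _).symm)

lemma Cyc.copy_extend (p : List Bool) (c : S.Cyc) (b : Bool) :
    (c.extend b).copy p = (c.copy p).extend b :=
  Cyc.ext' rfl rfl (funext fun _ => (List.append_assoc _ _ _).symm)

lemma Cyc.copy_restrict (p : List Bool) (c : S.Cyc) {V : Set S.X} (hV : IsClopen V) :
    (c.restrict hV).copy p = (c.copy p).restrict hV :=
  Cyc.ext' rfl rfl rfl

/-- `g'` is `g` on the points beginning with `p`, read after `p`, and the identity elsewhere. -/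
def Pref (p : List Bool) (g g' : Equiv.Perm S.Pt) : Prop :=
  (∀ x z, g' (x, cat p z) = ((g (x, z)).1, cat p (g (x, z)).2)) ∧
    ∀ q : S.Pt, tk p.length q.2 ≠ p → g' q = q

namespace Pref

variable {p : List Bool} {g g' h h' : Equiv.Perm S.Pt}

lemma mul (a : Pref p g g') (b : Pref p h h') : Pref p (g * h) (g' * h') :=
  ⟨fun x z => by
    show g' (h' _) = _
    rw [b.1, a.1]
    rfl, fun q hq => by
    show g' (h' q) = q
    rw [b.2 q hq, a.2 q hq]⟩

lemma one (p : List Bool) : Pref (S := S) p 1 1 := ⟨fun _ _ => rfl, fun _ _ => rfl⟩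

lemma inv (a : Pref p g g') : Pref p g⁻¹ g'⁻¹ := by
  refine ⟨fun x z => ?_, fun q hq => ?_⟩
  · show g'.symm _ = _
    rw [Equiv.symm_apply_eq, a.1]
    simp
  · show g'.symm q = q
    rw [Equiv.symm_apply_eq, a.2 q hq]

lemma eq_one (a : Pref p 1 g') : g' = 1 := by
  refine Equiv.ext fun q => ?_
  by_cases hq : tk p.length q.2 = p
  · have hq' : (q.1, cat p (dr p.length q.2)) = q := Prod.ext rfl (by
      show cat p (dr p.length q.2) = q.2
      exact (congrArg (fun l => cat l (dr p.length q.2)) hq).symm.trans (cat_tk_dr _ _))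
    have e := a.1 q.1 (dr p.length q.2)
    rw [hq'] at e
    exact e.trans hq'
  · exact a.2 q hq

end Pref

lemma Cyc.IsPerm.pref {c : S.Cyc} {g g' : Equiv.Perm S.Pt} (p : List Bool) (h : c.IsPerm S g)
    (h' : (c.copy p).IsPerm S g') : Pref p g g' := by
  refine ⟨fun x z => ?_, fun q hq => h'.2 q fun i hi => hq (eq_cat_of_mem_piece hi).2⟩
  by_cases hx : ∀ i, (x, z) ∉ S.piece c.base (c.shift i) (c.pre i)
  · rw [h.2 _ hx, h'.2 _ fun i hi => hx i (piece_copy_iff.1 hi)]
  · push Not at hx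
    obtain ⟨i, x', hx', w, e⟩ := hx
    obtain ⟨rfl, rfl⟩ := Prod.mk.inj e
    have e' := h'.apply_piece i (x := x') hx' w
    simp only [Cyc.copy, cat_append] at e'
    rw [e', h.apply_piece i hx' w]

/-! ### The universal lift -/

namespace Lift

variable (Λ : Lift S)

/-- The permutation of a cycle. -/
def perm (c : S.Cyc) : Equiv.Perm S.Pt := Λ.proj (Λ.t c)

/-- The relations of a lift. -/
def rels : Set (FreeGroup S.Cyc) :=
  {r | ∃ (c : S.Cyc) (V : Set S.X) (hV : IsClopen V),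
    r = FreeGroup.of c * (FreeGroup.of (c.restrict hV) * FreeGroup.of (c.restrict hV.compl))⁻¹} ∪
  {r | ∃ c : S.Cyc,
    r = FreeGroup.of c * (FreeGroup.of (c.extend false) * FreeGroup.of (c.extend true))⁻¹} ∪
  {r | ∃ c d d' : S.Cyc, Cyc.MapsTo (Λ.perm c) d d' ∧
    r = FreeGroup.of c * FreeGroup.of d * (FreeGroup.of c)⁻¹ * (FreeGroup.of d')⁻¹}

lemma rels_hold : ∀ r ∈ Λ.rels, FreeGroup.lift Λ.t r = 1 := by
  rintro r ((⟨c, V, hV, rfl⟩ | ⟨c, rfl⟩) | ⟨c, d, d', h, rfl⟩) <;>
    simp only [map_mul, map_inv, FreeGroup.lift_apply_of]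
  · rw [← Λ.split_base c V hV, mul_inv_cancel]
  · rw [← Λ.split_pre c, mul_inv_cancel]
  · rw [Λ.conj c d d' h, mul_inv_cancel]

/-- From the universal lift to a lift. -/
def fromUniv : PresentedGroup Λ.rels →* Λ.E := PresentedGroup.toGroup Λ.rels_hold

@[simp] lemma fromUniv_of (c : S.Cyc) : Λ.fromUniv (PresentedGroup.of c) = Λ.t c :=
  PresentedGroup.toGroup.of _

lemma fromUniv_surjective : Function.Surjective Λ.fromUniv := by
  rw [← MonoidHom.range_eq_top, eq_top_iff, ← Λ.generated, Subgroup.closure_le]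
  rintro _ ⟨c, rfl⟩
  exact ⟨_, Λ.fromUniv_of c⟩

lemma eq_of_rel {r : FreeGroup S.Cyc} (hr : r ∈ Λ.rels) : PresentedGroup.mk Λ.rels r = 1 :=
  PresentedGroup.one_of_mem hr

/-- The universal lift. -/
def univ : Lift S where
  E := PresentedGroup Λ.rels
  proj := Λ.proj.comp Λ.fromUniv
  t := PresentedGroup.of
  proj_t c := by
    rw [MonoidHom.comp_apply, fromUniv_of]
    exact Λ.proj_t c
  split_base c V hV := eq_of_mul_inv_eq_one (Λ.eq_of_rel (Or.inl (Or.inl ⟨c, V, hV, rfl⟩)))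
  split_pre c := eq_of_mul_inv_eq_one (Λ.eq_of_rel (Or.inl (Or.inr ⟨c, rfl⟩)))
  conj c d d' h := eq_of_mul_inv_eq_one (Λ.eq_of_rel (Or.inr ⟨c, d, d', by
    rw [MonoidHom.comp_apply, fromUniv_of] at h
    exact h, rfl⟩))
  generated := PresentedGroup.closure_range_of _

lemma univ_perm (c : S.Cyc) : Λ.univ.perm c = Λ.perm c :=
  congrArg Λ.proj (Λ.fromUniv_of c)

lemma rels_copy (p : List Bool) : ∀ r ∈ Λ.rels,
    FreeGroup.lift (fun c => Λ.univ.t (c.copy p)) r = 1 := by
  rintro r ((⟨c, V, hV, rfl⟩ | ⟨c, rfl⟩) | ⟨c, d, d', h, rfl⟩) <;>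
    simp only [map_mul, map_inv, FreeGroup.lift_apply_of]
  · rw [Cyc.copy_restrict, Cyc.copy_restrict, ← Λ.univ.split_base _ V hV, mul_inv_cancel]
  · rw [Cyc.copy_extend, Cyc.copy_extend, ← Λ.univ.split_pre, mul_inv_cancel]
  · rw [Λ.univ.conj (c.copy p) (d.copy p) (d'.copy p) ?_, mul_inv_cancel]
    show Cyc.MapsTo (Λ.univ.perm (c.copy p)) _ _
    rw [univ_perm]
    have hp := (Λ.proj_t c).pref p (Λ.proj_t (c.copy p))
    refine ⟨h.1, fun i x hx w => ?_⟩
    simp only [Cyc.copy, cat_append]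
    show Λ.proj (Λ.t (c.copy p)) _ = _
    rw [hp.1]
    have e := h.2 i x hx w
    rw [perm] at e
    rw [e]

/-- Putting a prefix in front of all prefixes, on the universal lift. -/
def copyHom (p : List Bool) : Λ.univ.E →* Λ.univ.E := PresentedGroup.toGroup (Λ.rels_copy p)

@[simp] lemma copyHom_t (p : List Bool) (c : S.Cyc) :
    Λ.copyHom p (Λ.univ.t c) = Λ.univ.t (c.copy p) :=
  PresentedGroup.toGroup.of _

end Lift

end Vale.Agent.P193.BH.SFT
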