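import Vale.Agent.P193.Faithful.Good
import Vale.Agent.P193.Faithful.Universal

/-!
P193, W6: the doubling swindle. In a lift with copies, an element of the kernel fixed by the
doubling together with its two copies is trivial.
-/

namespace Vale.Agent.P193.BH.SFT

variable {Γ : Type} [Group Γ] {S : SFT Γ}

namespace Lift

/-- A lift with endomorphisms putting prefixes in front. -/
structure Copies (Λ : Lift S) where
  cp : List Bool → (Λ.E →* Λ.E)
  cp_t : ∀ p c, cp p (Λ.t c) = Λ.t (c.copy p)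

/-- The copies on the universal lift. -/
def univCopies (Λ : Lift S) : Copies Λ.univ where
  cp := Λ.copyHom
  cp_t := Λ.copyHom_t

namespace Copies

variable {Λ : Lift S} (C : Copies Λ)

lemma hom_ext {M : Type*} [Monoid M] {f f' : Λ.E →* M} (h : ∀ c, f (Λ.t c) = f' (Λ.t c)) :
    f = f' :=
  MonoidHom.eq_of_eqOn_dense Λ.generated (by rintro _ ⟨c, rfl⟩; exact h c)

lemma cp_cp (p p' : List Bool) (a : Λ.E) : C.cp p (C.cp p' a) = C.cp (p ++ p') a := by
  have : (C.cp p).comp (C.cp p') = C.cp (p ++ p') := hom_ext fun c => by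
    rw [MonoidHom.comp_apply, C.cp_t, C.cp_t, C.cp_t, Cyc.copy_copy]
  exact DFunLike.congr_fun this a

lemma pref (p : List Bool) (a : Λ.E) : Pref p (Λ.proj a) (Λ.proj (C.cp p a)) := by
  have ha : a ∈ Subgroup.closure (Set.range Λ.t) := by rw [Λ.generated]; trivial
  induction ha using Subgroup.closure_induction with
  | one => simpa using Pref.one p
  | mem x hx =>
    obtain ⟨c, rfl⟩ := hx
    rw [C.cp_t]
    exact (Λ.proj_t c).pref p (Λ.proj_t _)
  | inv x _ hx => simpa using hx.inv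
  | mul x y _ _ hx hy => simpa using hx.mul hy

lemma proj_cp_eq_one (p : List Bool) {k : Λ.E} (hk : Λ.proj k = 1) : Λ.proj (C.cp p k) = 1 :=
  (hk ▸ C.pref p k).eq_one

lemma commute_cp (a a' : Λ.E) : Commute (C.cp [false] a) (C.cp [true] a') := by
  have h : ∀ d : S.Cyc, Commute (C.cp [false] a) (Λ.t (d.copy [true])) := fun d => by
    have h := Λ.good (C.cp [false] a) (d.copy [true]) (d.copy [true]) ⟨rfl, fun i x _ w => by
      refine (C.pref [false] a).2 _ ?_
      simp [Cyc.copy, tk, cat]⟩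
    exact mul_inv_eq_iff_eq_mul.1 h
  have ha : a' ∈ Subgroup.closure (Set.range Λ.t) := by rw [Λ.generated]; trivial
  induction ha using Subgroup.closure_induction with
  | one => simp
  | mem x hx =>
    obtain ⟨c, rfl⟩ := hx
    rw [C.cp_t]
    exact h c
  | inv x _ hx => simpa using hx.inv_right
  | mul x y _ _ hx hy => simpa using hx.mul_right hy

/-- Doubling. -/
def dbl : Λ.E →* Λ.E where
  toFun a := C.cp [false] a * C.cp [true] a
  map_one' := by simp
  map_mul' a a' := by
    rw [map_mul, map_mul]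
    exact (C.commute_cp a' a).mul_mul_mul_comm (C.cp [false] a) (C.cp [true] a')

lemma dbl_apply (a : Λ.E) : C.dbl a = C.cp [false] a * C.cp [true] a := rfl

lemma dbl_t (c : S.Cyc) : C.dbl (Λ.t c) = Λ.t (c.copy [false]) * Λ.t (c.copy [true]) := by
  rw [dbl_apply, C.cp_t, C.cp_t]

lemma proj_dbl_apply (a : Λ.E) (b : Bool) (x : S.X) (z : ℕ → Bool) :
    Λ.proj (C.dbl a) (x, cat [b] z) =
      ((Λ.proj a (x, z)).1, cat [b] (Λ.proj a (x, z)).2) := by
  rw [dbl_apply, map_mul, Equiv.Perm.mul_apply]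
  cases b
  · rw [(C.pref [true] a).2 _ (by simp [tk, cat]), (C.pref [false] a).1]
  · rw [(C.pref [true] a).1, (C.pref [false] a).2 _ (by simp [tk, cat])]

/-- Elements carrying one prefix to another conjugate the copies. -/
lemma cp_eq_conj {p p' : List Bool} (h : Λ.E)
    (hh : ∀ x z, Λ.proj h (x, cat p z) = (x, cat p' z)) (a : Λ.E) :
    C.cp p' a = h * C.cp p a * h⁻¹ := by
  have : C.cp p' = (MulAut.conj h).toMonoidHom.comp (C.cp p) := hom_ext fun c => by
    simp only [MonoidHom.comp_apply, MulEquiv.coe_toMonoidHom, MulAut.conj_apply, C.cp_t]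
    refine (Λ.good h (c.copy p) (c.copy p') ⟨rfl, fun i x _ w => ?_⟩).symm
    simp only [Cyc.copy, cat_append]
    rw [hh]
  exact DFunLike.congr_fun this a

/-- The three-cycle of the full prefixes `q 0 → q 1 → q 2`. -/
def fullCyc (q : Fin 3 → List Bool)
    (h : ∀ i j, i ≠ j → ¬ q i <+: q j) : S.Cyc where
  base := Set.univ
  clopen := isClopen_univ
  shift := 1
  pre := q
  disjoint i j hij := by
    refine Set.disjoint_left.2 fun p hp hp' => ?_
    obtain ⟨x, -, w, rfl⟩ := hp
    obtain ⟨x', -, w', e⟩ := hp'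
    have e' := congrArg Prod.snd e
    rcases le_total (q i).length (q j).length with hl | hl
    · exact h i j hij (prefix_of_cat_eq hl e')
    · exact h j i hij.symm (prefix_of_cat_eq hl e'.symm)

lemma proj_fullCyc (Λ : Lift S) (q : Fin 3 → List Bool) (h) (i : Fin 3) (x : S.X) (z : ℕ → Bool) :
    Λ.proj (Λ.t (fullCyc q h)) (x, cat (q i) z) = (x, cat (q (i + 1)) z) := by
  have e := (Λ.proj_t (fullCyc (S := S) q h)).apply_piece i (x := x) (Set.mem_univ x) z
  simpa [fullCyc, S.act_one] using e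

/-- An element carrying `b` to `!b b`, and one carrying `b` to `b b`. -/
lemma exists_moves (b : Bool) :
    (∃ h : Λ.E, ∀ x z, Λ.proj h (x, cat [b] z) = (x, cat [!b, b] z)) ∧
      ∃ h : Λ.E, ∀ x z, Λ.proj h (x, cat [b] z) = (x, cat [b, b] z) := by
  have h1 : ∀ i j : Fin 3, i ≠ j → ¬ ![[b], [!b, b], [!b, !b]] i <+: ![[b], [!b, b], [!b, !b]] j := by
    decide +revert
  have h2 : ∀ i j : Fin 3, i ≠ j →
      ¬ ![[!b, b], [b, b], [b, !b]] i <+: ![[!b, b], [b, b], [b, !b]] j := by
    decide +revert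
  have e1 : ∀ x z, Λ.proj (Λ.t (fullCyc _ h1)) (x, cat [b] z) = (x, cat [!b, b] z) := fun x z =>
    proj_fullCyc Λ _ h1 0 x z
  refine ⟨⟨_, e1⟩, Λ.t (fullCyc _ h2) * Λ.t (fullCyc _ h1), fun x z => ?_⟩
  rw [map_mul, Equiv.Perm.mul_apply, e1]
  exact proj_fullCyc Λ _ h2 0 x z

/-- The swindle. -/
theorem eq_one_of_dbl {k : Λ.E} (hk : Λ.proj k = 1) (h : C.dbl k = k)
    (hb : ∀ b, C.dbl (C.cp [b] k) = C.cp [b] k) : k = 1 := by
  have key : ∀ b, C.cp [b] k = 1 := fun b => by
    obtain ⟨⟨u, hu⟩, v, hv⟩ := exists_moves (Λ := Λ) b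
    have hc := Λ.ker_central (C.proj_cp_eq_one [b] hk)
    have e1 : C.cp [!b, b] k = C.cp [b] k := by
      rw [C.cp_eq_conj u hu, ← hc, mul_inv_cancel_right]
    have e2 : C.cp [b, b] k = C.cp [b] k := by
      rw [C.cp_eq_conj v hv, ← hc, mul_inv_cancel_right]
    have e := hb b
    rw [dbl_apply, cp_cp, cp_cp] at e
    cases b <;> simp only [List.cons_append, List.nil_append] at e <;>
      simp only [Bool.not_false, Bool.not_true] at e1
    · rw [e1, e2] at e
      exact mul_eq_left.1 e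
    · rw [e1, e2] at e
      exact mul_eq_left.1 e
  rw [← h, dbl_apply, key, key, one_mul]

end Copies

end Lift

end Vale.Agent.P193.BH.SFT
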