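import Vale.Agent.P193.BH.Pieces

/-!
P193, W6: in a lift every element is affine on the parts of a fine enough splitting of any cycle
and acts on lifted cycles through its permutation. In particular the kernel is central.
-/

namespace Vale.Agent.P193.BH.SFT

variable {Γ : Type} [Group Γ] {S : SFT Γ}

namespace Cyc

/-- Split all prefixes up to length `M`. -/
lemma fine_of_long {P : S.Cyc → Prop} (M : ℕ)
    (h : ∀ d : S.Cyc, (∀ i, M ≤ (d.pre i).length) → Fine P d) (d : S.Cyc) : Fine P d := by
  induction hn : (∑ i, (M - (d.pre i).length)) using Nat.strong_induction_on generalizing d with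
  | _ n ih =>
    by_cases hl : ∀ i, M ≤ (d.pre i).length
    · exact h d hl
    · push Not at hl
      obtain ⟨i, hi⟩ := hl
      have key : ∀ b, ∑ j, (M - ((d.extend b).pre j).length) < n := fun b => by
        subst hn
        refine Finset.sum_lt_sum (fun j _ => ?_) ⟨i, Finset.mem_univ i, ?_⟩ <;>
          simp only [extend_pre, List.length_append, List.length_singleton] <;> omega
      exact .pre d (ih _ (key false) _ rfl) (ih _ (key true) _ rfl)

/-- Split the base by finitely many clopen sets. -/
lemma fine_of_split {P : S.Cyc → Prop} (L : List (Set S.X)) (hL : ∀ V ∈ L, IsClopen V)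
    (d : S.Cyc) (h : ∀ e : S.Cyc, e.shift = d.shift → e.pre = d.pre → e.base ⊆ d.base →
      (∀ V ∈ L, e.base ⊆ V ∨ e.base ⊆ Vᶜ) → Fine P e) : Fine P d := by
  induction L generalizing d with
  | nil => exact h d rfl rfl subset_rfl (by simp)
  | cons V L ih =>
    have hV : IsClopen V := hL V (by simp)
    refine .base d V hV (ih (fun W hW => hL W (by simp [hW])) _ fun e h1 h2 h3 h4 =>
        h e h1 h2 (h3.trans Set.inter_subset_left) fun W hW => ?_)
      (ih (fun W hW => hL W (by simp [hW])) _ fun e h1 h2 h3 h4 =>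
        h e h1 h2 (h3.trans Set.inter_subset_left) fun W hW => ?_)
    · rcases List.mem_cons.1 hW with rfl | hW
      · exact Or.inl (h3.trans Set.inter_subset_right)
      · exact h4 W hW
    · rcases List.mem_cons.1 hW with rfl | hW
      · exact Or.inr (h3.trans Set.inter_subset_right)
      · exact h4 W hW

/-- A three-cycle of pieces is affine on the parts of a fine splitting of any cycle. -/
lemma IsPerm.fine_affine {c : S.Cyc} {g : Equiv.Perm S.Pt} (h : c.IsPerm S g) (d : S.Cyc) :
    Fine (Affine g) d := by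
  refine fine_of_long (∑ j, (c.pre j).length) (fun d hd => ?_) d
  let V : Fin 3 × Fin 3 → Set S.X :=
    fun q => S.act (d.shift q.1) ⁻¹' (S.act (c.shift q.2) '' c.base)
  refine fine_of_split ((Finset.univ : Finset (Fin 3 × Fin 3)).toList.map V) (fun W hW => ?_) d
    fun e h1 h2 _ h4 => .of e ?_
  · obtain ⟨q, -, rfl⟩ := List.mem_map.1 hW
    exact (isClopen_image_act _ c.clopen).preimage (S.continuous_act _)
  classical
  have hM : ∀ j i, (c.pre j).length ≤ (e.pre i).length := fun j i => by
    rw [h2]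
    exact le_trans (Finset.single_le_sum (f := fun j => (c.pre j).length)
      (fun _ _ => Nat.zero_le _) (Finset.mem_univ j)) (hd i)
  have key : ∀ i, ∃ (δ : Γ) (b : List Bool), ∀ x ∈ e.base, ∀ w,
      g (S.act (e.shift i) x, cat (e.pre i) w) = (S.act δ x, cat b w) := by
    intro i
    by_cases hj : ∃ j, c.pre j <+: e.pre i ∧ e.base ⊆ V (i, j)
    · obtain ⟨j, ⟨r, hr⟩, hsub⟩ := hj
      refine ⟨c.shift (j + 1) * (c.shift j)⁻¹ * e.shift i, c.pre (j + 1) ++ r, fun x hx w => ?_⟩
      obtain ⟨y, hy, hyx⟩ := hsub hx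
      have e1 : S.act (e.shift i) x = S.act (c.shift j) y := by rw [h1]; exact hyx.symm
      have e2 : S.act (c.shift (j + 1) * (c.shift j)⁻¹ * e.shift i) x =
          S.act (c.shift (j + 1)) y := by
        rw [← S.act_act, e1, S.act_act, inv_mul_cancel_right]
      rw [e1, e2, ← hr, cat_append, cat_append]
      exact h.apply_piece j hy _
    · refine ⟨e.shift i, e.pre i, fun x hx w => h.2 _ ?_⟩
      intro j hmem
      obtain ⟨y, hy, w', e'⟩ := hmem
      obtain ⟨e1, e2⟩ := Prod.mk.inj e'
      refine hj ⟨j, prefix_of_cat_eq (hM j i) e2.symm, ?_⟩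
      rcases h4 (V (i, j)) (List.mem_map.2 ⟨(i, j), by simp, rfl⟩) with h' | h'
      · exact h'
      · exact absurd (show x ∈ V (i, j) from ⟨y, hy, by rw [← h1]; exact e1.symm⟩) (h' hx)
  choose δ b hb using key
  exact ⟨_, mapsTo_image e g δ b hb⟩

end Cyc

namespace Lift

open Cyc

variable (Λ : Lift S)

lemma t_empty {c : S.Cyc} (h : c.base = ∅) : Λ.t c = 1 := by
  have e : ∀ (V : Set S.X) (hV : IsClopen V), c.restrict hV = c := fun V hV =>
    Cyc.ext' (by simp [restrict_base, h]) rfl rfl
  have := Λ.split_base c Set.univ isClopen_univ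
  rw [e, e] at this
  exact left_eq_mul.1 this

lemma fine_affine (a : Λ.E) : ∀ d, Fine (Affine (Λ.proj a)) d := by
  have hmul : ∀ a b : Λ.E, (∀ d, Fine (Affine (Λ.proj a)) d) →
      (∀ d, Fine (Affine (Λ.proj b)) d) → ∀ d, Fine (Affine (Λ.proj (a * b))) d := by
    intro a b ha hb d
    refine (hb d).bind fun e he => ?_
    obtain ⟨e', he'⟩ := he
    have := ha e'
    induction this generalizing e with
    | of e' h =>
      obtain ⟨e'', h'⟩ := h
      exact .of e ⟨e'', by rw [map_mul]; exact he'.comp h'⟩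
    | base e' V hV _ _ i1 i2 =>
      exact .base e V hV (i1 _ (he'.restrict hV)) (i2 _ (he'.restrict hV.compl))
    | pre e' _ _ i1 i2 => exact .pre e (i1 _ (he'.extend false)) (i2 _ (he'.extend true))
  have ha : a ∈ Subgroup.closure (Set.range Λ.t) := by rw [Λ.generated]; trivial
  induction ha using Subgroup.closure_induction'' with
  | one => exact fun d => .of d ⟨d, by rw [map_one]; exact MapsTo.refl d⟩
  | mem x hx =>
    obtain ⟨c, rfl⟩ := hx
    exact (Λ.proj_t c).fine_affine
  | inv_mem x hx =>
    obtain ⟨c, rfl⟩ := hx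
    rw [map_inv]
    exact (Λ.proj_t c).inv.fine_affine
  | mul x y _ _ hx hy => exact hmul x y hx hy

/-- Every element acts on the lifted cycles through its permutation. -/
lemma good (a : Λ.E) :
    ∀ d d', MapsTo (Λ.proj a) d d' → a * Λ.t d * a⁻¹ = Λ.t d' := by
  have hone : ∀ d d', MapsTo (1 : Equiv.Perm S.Pt) d d' → Λ.t d = Λ.t d' := by
    intro d d' h
    have h0 : (d.restrict isClopen_empty).base = ∅ := by simp [restrict_base]
    have := Λ.conj (d.restrict isClopen_empty) d d' (by rw [(Λ.proj_t _).of_empty h0]; exact h)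
    rwa [Λ.t_empty h0, one_mul, inv_one, mul_one] at this
  have hmul : ∀ a b : Λ.E, (∀ d d', MapsTo (Λ.proj a) d d' → a * Λ.t d * a⁻¹ = Λ.t d') →
      (∀ d d', MapsTo (Λ.proj b) d d' → b * Λ.t d * b⁻¹ = Λ.t d') →
      ∀ d d', MapsTo (Λ.proj (a * b)) d d' → a * b * Λ.t d * (a * b)⁻¹ = Λ.t d' := by
    intro a b ha hb d d' h
    induction Λ.fine_affine b d generalizing d' with
    | of e he =>
      obtain ⟨e1, h1⟩ := he
      have h2 : MapsTo (Λ.proj a) e1 d' := by
        refine ⟨h.1.trans h1.1.symm, fun i x hx w => ?_⟩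
        rw [← h1.2 i x (h1.1 ▸ hx) w, ← h.2 i x (h1.1 ▸ hx) w, map_mul]
        rfl
      rw [← ha e1 d' h2, ← hb e e1 h1]
      group
    | base e V hV _ _ i1 i2 =>
      rw [Λ.split_base e V hV, Λ.split_base d' V hV, ← i1 _ (h.restrict hV),
        ← i2 _ (h.restrict hV.compl)]
      group
    | pre e _ _ i1 i2 =>
      rw [Λ.split_pre e, Λ.split_pre d', ← i1 _ (h.extend false), ← i2 _ (h.extend true)]
      group
  have ha : a ∈ Subgroup.closure (Set.range Λ.t) := by rw [Λ.generated]; trivial
  induction ha using Subgroup.closure_induction'' with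
  | one =>
    intro d d' h
    rw [map_one] at h
    rw [one_mul, inv_one, mul_one, hone d d' h]
  | mem x hx =>
    obtain ⟨c, rfl⟩ := hx
    exact Λ.conj c
  | inv_mem x hx =>
    obtain ⟨c, rfl⟩ := hx
    intro d d' h
    rw [map_inv] at h
    have h' := h.symm
    rw [inv_inv] at h'
    rw [← Λ.conj c d' d h']
    group
  | mul x y _ _ hx hy => exact hmul x y hx hy

/-- The kernel is central. -/
lemma ker_central {k : Λ.E} (hk : Λ.proj k = 1) (a : Λ.E) : k * a = a * k := by
  have ha : a ∈ Subgroup.closure (Set.range Λ.t) := by rw [Λ.generated]; trivial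
  have key : Subgroup.closure (Set.range Λ.t) ≤ Subgroup.centralizer {k} := by
    rw [Subgroup.closure_le]
    rintro _ ⟨d, rfl⟩
    rw [SetLike.mem_coe, Subgroup.mem_centralizer_singleton_iff]
    exact (mul_inv_eq_iff_eq_mul.1 (Λ.good k d d (by rw [hk]; exact MapsTo.refl d))).symm
  exact (Subgroup.mem_centralizer_singleton_iff.1 (key ha)).symm

end Lift

end Vale.Agent.P193.BH.SFT
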