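import Vale.Agent.P193.Faithful.Level
import Vale.Agent.P193.Faithful.Double

/-!
P193, W6: the element which moves the letter after the leaf to the front, and the triviality of
the length preserving part of the kernel.
-/

namespace Vale.Agent.P193.BH.SFT

variable {Γ : Type} [Group Γ] {S : SFT Γ}

/-- The letter number `ℓ` is moved to the front. -/
def ins (ℓ : ℕ) (z : ℕ → Bool) : ℕ → Bool :=
  fun i => if i = 0 then z ℓ else if i ≤ ℓ then z (i - 1) else z i

lemma ins_zero' (ℓ : ℕ) (z : ℕ → Bool) : ins ℓ z 0 = z ℓ := if_pos rfl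

lemma ins_succ_of_lt {ℓ i : ℕ} (z : ℕ → Bool) (h : i < ℓ) : ins ℓ z (i + 1) = z i := by
  simp [ins, show i + 1 ≤ ℓ by omega]

lemma ins_of_gt {ℓ i : ℕ} (z : ℕ → Bool) (h : ℓ < i) : ins ℓ z i = z i := by
  simp [ins, show i ≠ 0 by omega, show ¬ i ≤ ℓ by omega]

lemma ins_cat {a : List Bool} {ℓ : ℕ} (h : a.length = ℓ) (b : Bool) (w : ℕ → Bool) :
    ins ℓ (cat (a ++ [b]) w) = cat ([b] ++ a) w := by
  subst h
  funext i
  rcases Nat.eq_zero_or_pos i with rfl | hi
  · rw [ins_zero', cat_of_lt _ (by simp), cat_of_lt _ (by simp)]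
    simp
  obtain ⟨i, rfl⟩ := Nat.exists_eq_succ_of_ne_zero hi.ne'
  by_cases h : i < a.length
  · rw [ins_succ_of_lt _ h, cat_of_lt _ (by simp; omega), cat_of_lt _ (by simp; omega)]
    simp [List.getElem_append_left h]
  · rw [ins_of_gt _ (by omega), cat_of_le _ (by simp; omega), cat_of_le _ (by simp; omega)]
    simp

/-- `g` moves the letter after the leaf of `L` to the front. -/
def IsIns (L : LenFn S) (g : Equiv.Perm S.Pt) : Prop :=
  ∀ x z, g (x, z) = (x, ins (L.len (x, z)) z)

lemma IsIns.unique {L : LenFn S} {g g' : Equiv.Perm S.Pt} (h : IsIns L g) (h' : IsIns L g') :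
    g = g' :=
  Equiv.ext fun ⟨x, z⟩ => by rw [h, h']

namespace LenFn

variable (L : LenFn S)

/-- The insertion on the first `M + 1` letters. -/
def insWord (M : ℕ) (x : S.X) (v : Fin (M + 1) → Bool) : Fin (M + 1) → Bool :=
  fun i => ins (L.len (x, cat (List.ofFn v) fun _ => false)) (cat (List.ofFn v) fun _ => false) i

lemma cat_ofFn {n : ℕ} (v : Fin n → Bool) (w : ℕ → Bool) {i : ℕ} (h : i < n) :
    cat (List.ofFn v) w i = v ⟨i, h⟩ := by
  rw [cat_of_lt _ (by simpa using h)]
  simp

lemma tk_ofFn {n M : ℕ} (h : M ≤ n) (v : Fin n → Bool) (w w' : ℕ → Bool) :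
    tk M (cat (List.ofFn v) w) = tk M (cat (List.ofFn v) w') :=
  tk_congr fun i hi => by rw [cat_ofFn v w (hi.trans_le h), cat_ofFn v w' (hi.trans_le h)]

lemma ins_eq_insWord {M : ℕ} (hM : L.bound ≤ M) (x : S.X) (v : Fin (M + 1) → Bool)
    (w : ℕ → Bool) :
    ins (L.len (x, cat (List.ofFn v) w)) (cat (List.ofFn v) w) =
      cat (List.ofFn (L.insWord M x v)) w := by
  have e : L.len (x, cat (List.ofFn v) w) = L.len (x, cat (List.ofFn v) fun _ => false) :=
    L.len_eq_of_bound hM x (tk_ofFn (by omega) v _ w)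
  have hb := (L.le_bound (x, cat (List.ofFn v) fun _ => false)).trans hM
  funext i
  by_cases hi : i < M + 1
  · rw [cat_ofFn _ _ hi, insWord, e]
    rcases Nat.eq_zero_or_pos i with rfl | hi0
    · simp only [ins_zero']
      rw [cat_ofFn _ _ (by omega), cat_ofFn _ _ (by omega)]
    obtain ⟨j, rfl⟩ := Nat.exists_eq_succ_of_ne_zero hi0.ne'
    by_cases h : j < L.len (x, cat (List.ofFn v) fun _ => false)
    · simp only [ins_succ_of_lt _ h]
      rw [cat_ofFn _ _ (by omega), cat_ofFn _ _ (by omega)]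
    · simp only [ins_of_gt (ℓ := L.len (x, cat (List.ofFn v) fun _ => false)) (i := j + 1) _
        (by omega)]
      rw [cat_ofFn _ _ hi, cat_ofFn _ _ hi]
  · rw [ins_of_gt _ (by omega), cat_of_le _ (by simp; omega), cat_of_le _ (by simp; omega)]
    simp

lemma insWord_injective {M : ℕ} (hM : L.bound ≤ M) (x : S.X) :
    Function.Injective (L.insWord M x) := by
  intro v v' e
  let z := cat (List.ofFn v) fun _ => false
  let z' := cat (List.ofFn v') fun _ => false
  have hz : ins (L.len (x, z)) z = ins (L.len (x, z')) z' := by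
    show ins (L.len (x, cat _ _)) (cat _ _) = ins (L.len (x, cat _ _)) (cat _ _)
    rw [L.ins_eq_insWord hM, L.ins_eq_insWord hM, e]
  let r : ℕ → Bool := fun i => ins (L.len (x, z)) z (i + 1)
  have h1 : L.len (x, r) = L.len (x, z) := L.leaf x z r (tk_congr fun i hi =>
    (ins_succ_of_lt z hi).symm)
  have h2 : L.len (x, r) = L.len (x, z') := L.leaf x z' r (tk_congr fun i hi => by
    show z' i = ins _ z (i + 1)
    rw [hz, ins_succ_of_lt z' hi])
  have hl : L.len (x, z) = L.len (x, z') := h1.symm.trans h2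
  funext ⟨i, hi⟩
  suffices z i = z' i by
    simp only [z, z'] at this
    rwa [cat_ofFn _ _ hi, cat_ofFn _ _ hi] at this
  rcases lt_trichotomy i (L.len (x, z)) with h | h | h
  · rw [← ins_succ_of_lt z h, hz, ins_succ_of_lt z' (hl ▸ h)]
  · subst h
    rw [← ins_zero' (L.len (x, z)) z, hz, ins_zero', hl]
  · rw [← ins_of_gt z h, hz, ins_of_gt z' (hl ▸ h)]

lemma isLocallyConstant_insWord (M : ℕ) : IsLocallyConstant (L.insWord M) := by
  refine (IsLocallyConstant.iff_continuous _).2 (continuous_pi fun v => ?_)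
  refine (IsLocallyConstant.iff_continuous _).1 ?_
  exact (L.loc.comp_continuous (f := fun x : S.X => (x, cat (List.ofFn v) fun _ => false))
    (continuous_id.prodMk continuous_const)).comp
      (fun n => fun i : Fin (M + 1) => ins n (cat (List.ofFn v) fun _ => false) i)

/-- The insertion as a permutation of the first `M + 1` letters. -/
noncomputable def insPerm (M : ℕ) (hM : L.bound ≤ M) (x : S.X) :
    Equiv.Perm (Fin (M + 1) → Bool) :=
  Equiv.ofBijective _ (Finite.injective_iff_bijective.1 (L.insWord_injective hM x))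

lemma isLocallyConstant_insPerm (M : ℕ) (hM : L.bound ≤ M) :
    IsLocallyConstant (L.insPerm M hM) :=
  IsLocallyConstant.desc _ (fun σ => ⇑σ) (L.isLocallyConstant_insWord M) DFunLike.coe_injective

lemma isIns_iff_isLevel {M : ℕ} (hM : L.bound ≤ M) (g : Equiv.Perm S.Pt) :
    IsIns L g ↔ IsLevel (M + 1) (L.insPerm M hM) g := by
  constructor
  · intro h x v w
    rw [h, L.ins_eq_insWord hM]
    rfl
  · intro h x z
    obtain ⟨v, w, rfl⟩ := exists_word (M + 1) z
    rw [h, L.ins_eq_insWord hM]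
    rfl

end LenFn

namespace Lift

variable (Λ : Lift S)

/-- Lifts of the cycles with three prefixes of one length. -/
def lp : Subgroup Λ.E :=
  Subgroup.closure (Λ.t '' {c | ∀ i j, (c.pre i).length = (c.pre j).length})

lemma leafGroup_le_lp (L : LenFn S) : Λ.leafGroup L ≤ Λ.lp :=
  Subgroup.closure_mono (Set.image_mono fun _ hc => hc.1)

lemma exists_isIns (L : LenFn S) : ∃ u ∈ Λ.lp, IsIns L (Λ.proj u) := by
  obtain ⟨u, hu, hl⟩ := Λ.exists_level (LenFn.const S 0) (M := L.bound + 1) (Nat.zero_le _)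
    (L.insPerm L.bound le_rfl) (L.isLocallyConstant_insPerm _ le_rfl) (fun x v _ w w' => rfl)
  exact ⟨u, Λ.leafGroup_le_lp _ hu, (L.isIns_iff_isLevel le_rfl _).2 hl⟩

namespace Copies

variable {Λ} (C : Copies Λ)

lemma cp_mem_lp (p : List Bool) {a : Λ.E} (ha : a ∈ Λ.lp) : C.cp p a ∈ Λ.lp := by
  induction ha using Subgroup.closure_induction with
  | one => simp
  | mem x hx =>
    obtain ⟨c, hc, rfl⟩ := hx
    rw [C.cp_t]
    exact Subgroup.subset_closure ⟨_, fun i j => by simp [Cyc.copy, hc i j], rfl⟩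
  | inv x _ hx => simpa using inv_mem hx
  | mul x y _ _ hx hy => simpa using mul_mem hx hy

/-- Doubling of a cycle all parts of which, split `k` times, have pieces equal to leaves of `R`. -/
lemma dbl_t_of_leaves {R : LenFn S} {u : Λ.E} (hu : IsIns R (Λ.proj u)) : ∀ (k : ℕ) (d : S.Cyc),
    (∀ i, ∀ x ∈ d.base, ∀ w,
      R.len (S.act (d.shift i) x, cat (d.pre i) w) = (d.pre i).length + k) →
    C.dbl (Λ.t d) * u = u * Λ.t d
  | 0, d, h => by
    have key : ∀ b, Λ.t (d.copy [b]) * u = u * Λ.t (d.extend b) := fun b => by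
      rw [← Λ.good u (d.extend b) (d.copy [b]) ⟨rfl, fun i x hx w => ?_⟩]
      · group
      have h' := h i x hx (cat [b] w)
      rw [← cat_append, add_zero] at h'
      show Λ.proj u (S.act (d.shift i) x, cat (d.pre i ++ [b]) w) =
        (S.act (d.shift i) x, cat ([b] ++ d.pre i) w)
      rw [hu, h', ins_cat rfl]
    rw [C.dbl_t, mul_assoc, key true, ← mul_assoc, key false, mul_assoc, ← Λ.split_pre]
  | k + 1, d, h => by
    have ih : ∀ b, C.dbl (Λ.t (d.extend b)) * u = u * Λ.t (d.extend b) := fun b =>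
      dbl_t_of_leaves hu k _ fun i x hx w => by
        have h' := h i x hx (cat [b] w)
        rw [← cat_append] at h'
        show R.len (S.act (d.shift i) x, cat (d.pre i ++ [b]) w) = _
        rw [h', Cyc.extend_pre]
        simp only [List.length_append, List.length_singleton]
        omega
    rw [Λ.split_pre d, map_mul, mul_assoc, ih true, ← mul_assoc, ih false, mul_assoc]

include C in
/-- The length preserving part of the kernel is trivial. -/
lemma eq_one_of_lp {k : Λ.E} (hk : k ∈ Λ.lp) (h1 : Λ.proj k = 1) : k = 1 := by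
  have key : ∀ a ∈ Λ.lp, ∃ N, ∀ n, N ≤ n → ∀ u, IsIns (LenFn.const S n) (Λ.proj u) →
      C.dbl a * u = u * a := by
    intro a ha
    induction ha using Subgroup.closure_induction with
    | one => exact ⟨0, fun n _ u _ => by simp⟩
    | mem x hx =>
      obtain ⟨c, hc, rfl⟩ := hx
      refine ⟨(c.pre 0).length, fun n hn u hu => C.dbl_t_of_leaves hu (n - (c.pre 0).length) c ?_⟩
      intro i x _ w
      show n = _
      rw [hc i 0]
      omega
    | inv x _ hx =>
      obtain ⟨N, hN⟩ := hx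
      refine ⟨N, fun n hn u hu => ?_⟩
      rw [map_inv, eq_comm, ← eq_inv_mul_iff_mul_eq.symm, ← mul_assoc, hN n hn u hu]
      group
    | mul x y _ _ hx hy =>
      obtain ⟨N, hN⟩ := hx
      obtain ⟨N', hN'⟩ := hy
      refine ⟨max N N', fun n hn u hu => ?_⟩
      rw [map_mul, mul_assoc, hN' n (le_trans (le_max_right _ _) hn) u hu, ← mul_assoc,
        hN n (le_trans (le_max_left _ _) hn) u hu, mul_assoc]
  have hd : ∀ a ∈ Λ.lp, Λ.proj a = 1 → C.dbl a = a := by
    intro a ha ha1
    obtain ⟨N, hN⟩ := key a ha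
    obtain ⟨u, -, hu⟩ := Λ.exists_isIns (LenFn.const S N)
    exact mul_right_cancel ((hN N le_rfl u hu).trans (Λ.ker_central ha1 u).symm)
  exact C.eq_one_of_dbl h1 (hd k hk h1) fun b =>
    hd _ (C.cp_mem_lp [b] hk) (C.proj_cp_eq_one [b] h1)

include C in
lemma lp_unique {a b : Λ.E} (ha : a ∈ Λ.lp) (hb : b ∈ Λ.lp) (h : Λ.proj a = Λ.proj b) : a = b :=
  mul_inv_eq_one.1 (C.eq_one_of_lp (mul_mem ha (inv_mem hb))
    (by rw [map_mul, map_inv, h, mul_inv_cancel]))

end Copies

end Lift

end Vale.Agent.P193.BH.SFT
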