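import Vale.Agent.P193.Faithful.Good

/-!
P193, W6: permutations of the first `M` letters, chosen locally constantly in the base point, are
lifted by products of length preserving cycles inside the leaves they preserve.
-/

namespace Vale.Agent.P193.BH.SFT

variable {Γ : Type} [Group Γ] {S : SFT Γ}

/-- A bounded locally constant choice of a leaf at every point: the first `len p` letters. -/
structure LenFn (S : SFT Γ) where
  len : S.Pt → ℕ
  bound : ℕ
  le_bound : ∀ p, len p ≤ bound
  loc : IsLocallyConstant len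
  leaf : ∀ (x : S.X) (z z' : ℕ → Bool), tk (len (x, z)) z = tk (len (x, z)) z' →
    len (x, z') = len (x, z)

namespace LenFn

variable (L : LenFn S)

/-- The leaf of a point. -/
def at' (p : S.Pt) : List Bool := tk (L.len p) p.2

lemma len_eq_of_bound {M : ℕ} (hM : L.bound ≤ M) (x : S.X) {z z' : ℕ → Bool}
    (h : tk M z = tk M z') : L.len (x, z') = L.len (x, z) :=
  L.leaf x z z' (tk_congr fun _ hi =>
    apply_of_tk_eq h (lt_of_lt_of_le hi ((L.le_bound _).trans hM)))

lemma at_eq_of_bound {M : ℕ} (hM : L.bound ≤ M) (x : S.X) {z z' : ℕ → Bool}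
    (h : tk M z = tk M z') : L.at' (x, z') = L.at' (x, z) := by
  simp only [at']
  rw [L.len_eq_of_bound hM x h]
  exact tk_congr fun _ hi =>
    (apply_of_tk_eq h (lt_of_lt_of_le hi ((L.le_bound _).trans hM))).symm

/-- The constant choice. -/
def const (S : SFT Γ) (n : ℕ) : LenFn S where
  len _ := n
  bound := n
  le_bound _ := le_rfl
  loc := IsLocallyConstant.const n
  leaf _ _ _ _ := rfl

end LenFn

/-- `g` permutes the first `M` letters by `σ`. -/
def IsLevel (M : ℕ) (σ : S.X → Equiv.Perm (Fin M → Bool)) (g : Equiv.Perm S.Pt) : Prop :=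
  ∀ x v w, g (x, cat (List.ofFn v) w) = (x, cat (List.ofFn (σ x v)) w)

lemma exists_word (M : ℕ) (z : ℕ → Bool) :
    ∃ (v : Fin M → Bool) (w : ℕ → Bool), z = cat (List.ofFn v) w :=
  ⟨fun i => z i, dr M z, (cat_tk_dr M z).symm⟩

lemma IsLevel.unique {M : ℕ} {σ : S.X → Equiv.Perm (Fin M → Bool)} {g g' : Equiv.Perm S.Pt}
    (h : IsLevel M σ g) (h' : IsLevel M σ g') : g = g' := by
  refine Equiv.ext fun ⟨x, z⟩ => ?_
  obtain ⟨v, w, rfl⟩ := exists_word M z
  rw [h, h']

lemma IsLevel.mul {M : ℕ} {σ τ : S.X → Equiv.Perm (Fin M → Bool)} {g g' : Equiv.Perm S.Pt}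
    (h : IsLevel M σ g) (h' : IsLevel M τ g') : IsLevel M (fun x => σ x * τ x) (g * g') :=
  fun x v w => by
    show g (g' _) = _
    rw [h', h]
    rfl

lemma IsLevel.one (M : ℕ) : IsLevel (S := S) M (fun _ => 1) 1 := fun _ _ _ => rfl

namespace Cyc

/-- All three prefixes have the same length and lie in one leaf of `L`. -/
def InLeaf (L : LenFn S) (c : S.Cyc) : Prop :=
  (∀ i j, (c.pre i).length = (c.pre j).length) ∧ c.shift = 1 ∧
    (∀ i, L.bound ≤ (c.pre i).length) ∧
    ∀ x ∈ c.base, ∀ i j w, L.at' (x, cat (c.pre i) w) = L.at' (x, cat (c.pre j) w)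

end Cyc

namespace Lift

variable (Λ : Lift S)

/-- The lifts of length preserving cycles inside the leaves of `L`. -/
def leafGroup (L : LenFn S) : Subgroup Λ.E := Subgroup.closure (Λ.t '' {c | c.InLeaf L})

/-- The cycle of three different words of one length over `V`. -/
def wordCyc (V : Set S.X) (hV : IsClopen V) {n : ℕ} (q : Fin 3 → Fin n → Bool)
    (hq : Function.Injective q) : S.Cyc where
  base := V
  clopen := hV
  shift := 1
  pre i := List.ofFn (q i)
  disjoint i j h := disjoint_piece_of_length (by simp) fun e => h (hq (List.ofFn_injective e))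

lemma proj_wordCyc (V : Set S.X) (hV : IsClopen V) {n : ℕ} (q : Fin 3 → Fin n → Bool)
    (hq : Function.Injective q) (x : S.X) (v : Fin n → Bool) (w : ℕ → Bool) :
    (∀ i, x ∈ V → v = q i → Λ.proj (Λ.t (wordCyc V hV q hq)) (x, cat (List.ofFn v) w) =
      (x, cat (List.ofFn (q (i + 1))) w)) ∧
    ((x ∉ V ∨ ∀ i, v ≠ q i) → Λ.proj (Λ.t (wordCyc V hV q hq)) (x, cat (List.ofFn v) w) =
      (x, cat (List.ofFn v) w)) := by
  constructor
  · intro i hx hv
    subst hv
    have e := (Λ.proj_t (wordCyc V hV q hq)).apply_piece i (x := x) hx w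
    simpa [wordCyc, S.act_one] using e
  · intro h
    refine (Λ.proj_t (wordCyc V hV q hq)).2 _ fun i hi => ?_
    obtain ⟨x', hx', w', e⟩ := hi
    simp only [wordCyc, Pi.one_apply, S.act_one, Prod.mk.injEq] at e
    obtain ⟨rfl, e⟩ := e
    rcases h with h | h
    · exact h hx'
    · exact h i (List.ofFn_injective (cat_inj (by simp) e).1)

/-- A word with one more letter. -/
def snoc {M : ℕ} (v : Fin M → Bool) (b : Bool) : Fin (M + 1) → Bool := Fin.snoc v b

lemma ofFn_snoc {M : ℕ} (v : Fin M → Bool) (b : Bool) :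
    List.ofFn (snoc v b) = List.ofFn v ++ [b] := by
  rw [snoc, List.ofFn_succ']
  simp [List.concat_eq_append]

lemma snoc_inj {M : ℕ} {v v' : Fin M → Bool} {b b' : Bool} :
    snoc v b = snoc v' b' ↔ v = v' ∧ b = b' := by
  rw [snoc, snoc, Fin.snoc_inj]

open Classical in
/-- The exchange of two words over a clopen set. -/
lemma exists_swap (L : LenFn S) {M : ℕ} (hM : L.bound ≤ M) {V : Set S.X} (hV : IsClopen V)
    {a b : Fin M → Bool} (hab : a ≠ b)
    (hleaf : ∀ x ∈ V, ∀ w w', L.at' (x, cat (List.ofFn a) w) = L.at' (x, cat (List.ofFn b) w')) :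
    ∃ η ∈ Λ.leafGroup L,
      IsLevel M (fun x => if x ∈ V then Equiv.swap a b else 1) (Λ.proj η) := by
  let q1 : Fin 3 → Fin (M + 1) → Bool := ![snoc a false, snoc b false, snoc a true]
  let q2 : Fin 3 → Fin (M + 1) → Bool := ![snoc b false, snoc a true, snoc b true]
  have hq1 : Function.Injective q1 := by
    intro i j h
    fin_cases i <;> fin_cases j <;> simp_all [q1, snoc_inj, Ne.symm hab]
  have hq2 : Function.Injective q2 := by
    intro i j h
    fin_cases i <;> fin_cases j <;> simp_all [q2, snoc_inj, Ne.symm hab]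
  have hin : ∀ (q : Fin 3 → Fin (M + 1) → Bool) (hq : Function.Injective q),
      (∀ i, ∃ u c, (u = a ∨ u = b) ∧ q i = snoc u c) →
      Λ.t (wordCyc V hV q hq) ∈ Λ.leafGroup L := fun q hq hu => by
    refine Subgroup.subset_closure ⟨_, ⟨fun i j => by simp [wordCyc], rfl,
      fun i => le_trans hM (by simp [wordCyc]), fun x hx i j w => ?_⟩,
      rfl⟩
    obtain ⟨u, c, hu1, hu2⟩ := hu i
    obtain ⟨u', c', hu1', hu2'⟩ := hu j
    simp only [wordCyc, hu2, hu2', ofFn_snoc, cat_append]
    rcases hu1 with rfl | rfl <;> rcases hu1' with rfl | rfl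
    · exact (hleaf x hx _ (cat [c] w)).trans (hleaf x hx _ _).symm
    · exact hleaf x hx _ _
    · exact (hleaf x hx _ _).symm
    · exact (hleaf x hx (cat [c] w) _).symm.trans (hleaf x hx _ _)
  refine ⟨Λ.t (wordCyc V hV q1 hq1) * Λ.t (wordCyc V hV q2 hq2),
    mul_mem (hin q1 hq1 fun i => ?_) (hin q2 hq2 fun i => ?_), fun x v w => ?_⟩
  · fin_cases i <;> simp [q1, snoc_inj]
  · fin_cases i <;> simp [q2, snoc_inj]
  obtain ⟨c, w, rfl⟩ : ∃ c w', w = cat [c] w' := ⟨w 0, dr 1 w, (cat_tk_dr 1 w).symm⟩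
  rw [map_mul, Equiv.Perm.mul_apply, ← cat_append, ← cat_append, ← ofFn_snoc, ← ofFn_snoc]
  have P1 := fun v => Λ.proj_wordCyc V hV q1 hq1 x v w
  have P2 := fun v => Λ.proj_wordCyc V hV q2 hq2 x v w
  by_cases hx : x ∈ V
  · simp only [if_pos hx]
    by_cases hva : v = a
    · subst hva
      rw [Equiv.swap_apply_left]
      cases c
      · rw [(P2 (snoc v false)).2 (Or.inr fun i => by fin_cases i <;> simp [q2, snoc_inj, hab])]
        exact (P1 (snoc v false)).1 0 hx rfl
      · rw [(P2 (snoc v true)).1 1 hx rfl]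
        exact (P1 (snoc b true)).2 (Or.inr fun i => by
          fin_cases i <;> simp [q1, snoc_inj, Ne.symm hab])
    by_cases hvb : v = b
    · subst hvb
      rw [Equiv.swap_apply_right]
      cases c
      · rw [(P2 (snoc v false)).1 0 hx rfl]
        exact (P1 (snoc a true)).1 2 hx rfl
      · rw [(P2 (snoc v true)).1 2 hx rfl]
        exact (P1 (snoc v false)).1 1 hx rfl
    · rw [Equiv.swap_apply_of_ne_of_ne hva hvb,
        (P2 _).2 (Or.inr fun i => by fin_cases i <;> simp [q2, snoc_inj, hva, hvb]),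
        (P1 _).2 (Or.inr fun i => by fin_cases i <;> simp [q1, snoc_inj, hva, hvb])]
  · simp only [if_neg hx, Equiv.Perm.one_apply]
    rw [(P2 _).2 (Or.inl hx), (P1 _).2 (Or.inl hx)]

open Classical in
/-- A fixed permutation preserving the leaves, over a clopen set. -/
lemma exists_level_const (L : LenFn S) {M : ℕ} (hM : L.bound ≤ M) {V : Set S.X} (hV : IsClopen V)
    (τ : Equiv.Perm (Fin M → Bool))
    (h : ∀ x ∈ V, ∀ v, τ v ≠ v → ∀ w w',
      L.at' (x, cat (List.ofFn (τ v)) w) = L.at' (x, cat (List.ofFn v) w')) :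
    ∃ η ∈ Λ.leafGroup L, IsLevel M (fun x => if x ∈ V then τ else 1) (Λ.proj η) := by
  induction hn : τ.support.card using Nat.strong_induction_on generalizing τ with
  | _ n ih =>
    by_cases h1 : τ = 1
    · subst h1
      exact ⟨1, one_mem _, fun x v w => by simp⟩
    obtain ⟨a, ha⟩ : ∃ a, τ a ≠ a := by
      by_contra h'
      push Not at h'
      exact h1 (Equiv.ext h')
    obtain ⟨η, hη, hl⟩ := exists_swap Λ L hM hV (Ne.symm ha)
      (fun x hx w w' => (h x hx a ha w' w).symm)
    have hlt : (Equiv.swap a (τ a) * τ).support.card < n :=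
      hn ▸ Equiv.Perm.card_support_swap_mul ha
    obtain ⟨η', hη', hl'⟩ := ih _ hlt (Equiv.swap a (τ a) * τ) (fun x hx v hv w w' => by
      rw [Equiv.Perm.mul_apply] at hv ⊢
      by_cases hτ : τ v = v
      · rw [hτ] at hv ⊢
        rcases eq_or_ne v a with rfl | hva
        · exact absurd hτ ha
        · rw [Equiv.swap_apply_of_ne_of_ne hva (fun e => hva (τ.injective (hτ.trans e)))] at hv
          exact absurd rfl hv
      · rcases eq_or_ne (τ v) a with e | e
        · rw [e, Equiv.swap_apply_left] at hv ⊢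
          exact (h x hx a ha w w).trans ((e ▸ h x hx v hτ w w') : _)
        rcases eq_or_ne (τ v) (τ a) with e' | e'
        · rw [e', Equiv.swap_apply_right] at hv
          exact absurd (τ.injective e').symm hv
        rw [Equiv.swap_apply_of_ne_of_ne e e']
        exact h x hx v hτ w w') rfl
    refine ⟨η * η', mul_mem hη hη', fun x v w => ?_⟩
    rw [map_mul]
    refine ((hl.mul hl') x v w).trans ?_
    by_cases hx : x ∈ V <;> simp [hx]

open Classical in
/-- Every locally constant permutation of the first `M` letters preserving the leaves of `L`. -/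
lemma exists_level (L : LenFn S) {M : ℕ} (hM : L.bound ≤ M)
    (σ : S.X → Equiv.Perm (Fin M → Bool)) (hσ : IsLocallyConstant σ)
    (h : ∀ x v, σ x v ≠ v → ∀ w w',
      L.at' (x, cat (List.ofFn (σ x v)) w) = L.at' (x, cat (List.ofFn v) w')) :
    ∃ η ∈ Λ.leafGroup L, IsLevel M σ (Λ.proj η) := by
  let f : S.X → Equiv.Perm (Fin M → Bool) × ((Fin M → Bool) → Fin (L.bound + 1)) := fun x =>
    (σ x, fun v => ⟨L.len (x, cat (List.ofFn v) fun _ => false), Nat.lt_succ_of_le (L.le_bound _)⟩)
  have hf : IsLocallyConstant f := by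
    refine hσ.prodMk ((IsLocallyConstant.iff_continuous _).2 (continuous_pi fun v => ?_))
    refine (IsLocallyConstant.iff_continuous _).1 ?_
    have := L.loc.comp_continuous (f := fun x : S.X => (x, cat (List.ofFn v) fun _ => false))
      (continuous_id.prodMk continuous_const)
    convert this.comp (fun n : ℕ => (⟨min n L.bound, by omega⟩ : Fin (L.bound + 1))) using 1
    exact funext fun x => Fin.ext (min_eq_left (L.le_bound _)).symm
  suffices ∀ T : Finset _, ∃ η ∈ Λ.leafGroup L,
      IsLevel M (fun x => if f x ∈ T then σ x else 1) (Λ.proj η) by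
    obtain ⟨η, hη, hl⟩ := this Finset.univ
    exact ⟨η, hη, fun x v w => by simpa using hl x v w⟩
  intro T
  induction T using Finset.induction_on with
  | empty => exact ⟨1, one_mem _, fun x v w => by simp⟩
  | insert p T hp ih =>
    obtain ⟨η, hη, hl⟩ := ih
    obtain ⟨η', hη', hl'⟩ := exists_level_const Λ L hM (hf.isClopen_fiber p) p.1
      (fun x hx v hv w w' => by
        have e : σ x = p.1 := congrArg Prod.fst (show f x = p from hx)
        rw [← e] at hv ⊢
        exact h x v hv w w')
    refine ⟨η' * η, mul_mem hη' hη, fun x v w => ?_⟩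
    rw [map_mul]
    refine ((hl'.mul hl) x v w).trans ?_
    by_cases hx : f x = p
    · have e : σ x = p.1 := congrArg Prod.fst hx
      simp [hx, hp, e]
    · simp [hx]

end Lift

end Vale.Agent.P193.BH.SFT
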